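import Vale.Agent.P260Z.Lay

/-!
# P260: the elementary facts about the layout
-/

namespace Vale.Agent.P260Z.Lay

open P215Z

variable {k : ℕ}

theorem org_0 (l : Fin k × Bool) : org k l 0 = 2 := rfl
theorem org_1 (l : Fin k × Bool) : org k l 1 = 7 := rfl
theorem org_2 (l : Fin k × Bool) : org k l 2 = 18 * (l.1 : ℕ) + (if l.2 then 10 else 6) := rfl
theorem org_3 (l : Fin k × Bool) : org k l 3 = 0 := rfl
theorem boxHi_0 : boxHi k 0 = 17 := rfl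
theorem boxHi_1 : boxHi k 1 = 17 := rfl
theorem boxHi_2 : boxHi k 2 = 18 * k := rfl
theorem boxHi_3 : boxHi k 3 = 3 := rfl

theorem bx_lo (i x x' y y' z z' : ℤ) : (bx i x x' y y' z z').1 0 = x ∧
    (bx i x x' y y' z z').1 1 = y ∧ (bx i x x' y y' z z').1 2 = 18 * i + z ∧
      (bx i x x' y y' z z').1 3 = 0 := ⟨rfl, rfl, rfl, rfl⟩

theorem bx_hi (i x x' y y' z z' : ℤ) : (bx i x x' y y' z z').2 0 = x' ∧
    (bx i x x' y y' z z').2 1 = y' ∧ (bx i x x' y y' z z').2 2 = 18 * i + z' ∧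
      (bx i x x' y y' z z').2 3 = 3 := ⟨rfl, rfl, rfl, rfl⟩

/-- the list of all caves -/
theorem cave_cases {c : Pt × Pt} (h : c ∈ caves k) : ∃ i : ℕ, i < k ∧
    ((i + 1 < k ∧ c = bx i 11 16 1 16 5 14) ∨ (i + 1 = k ∧ c = bx i 1 16 10 17 5 14) ∨
      c = bx i 1 16 1 7 5 14 ∨ c = bx i 1 16 10 16 5 14 ∨ c = bx i 8 9 3 4 1 5 ∨
      c = bx i 8 9 3 9 1 2 ∨ c = bx i 8 9 8 9 (-15) 2 ∨ c = bx i 8 9 8 17 (-15) (-14)) := by
  obtain ⟨i, hi, h⟩ := mem_caves.1 h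
  refine ⟨i, hi, ?_⟩
  simpa only [tree, clo, top, List.mem_cons, List.not_mem_nil, or_false] using h

theorem tree_mem {i : ℕ} (hi : i < k) {c : Pt × Pt} (h : c ∈ tree i) : c ∈ caves k :=
  mem_caves.2 ⟨i, hi, Or.inr (Or.inr h)⟩

theorem clo_mem {i : ℕ} (hi : i + 1 < k) : clo i ∈ caves k :=
  mem_caves.2 ⟨i, by omega, Or.inl ⟨hi, rfl⟩⟩

theorem top_mem {i : ℕ} (hi : i + 1 = k) : top i ∈ caves k :=
  mem_caves.2 ⟨i, by omega, Or.inr (Or.inl ⟨hi, rfl⟩)⟩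

theorem cave_three {c : Pt × Pt} (h : c ∈ caves k) : c.1 3 = 0 ∧ c.2 3 = 3 := by
  obtain ⟨i, -, h⟩ := cave_cases h
  rcases h with ⟨-, rfl⟩ | ⟨-, rfl⟩ | rfl | rfl | rfl | rfl | rfl | rfl <;> exact ⟨rfl, rfl⟩

theorem org_gap (l l' : Fin k × Bool) :
    l = l' ∨ (org k l 2 + 4 ≤ org k l' 2 ∨ org k l' 2 + 4 ≤ org k l 2) := by
  obtain ⟨i, b⟩ := l
  obtain ⟨i', b'⟩ := l'
  rw [org_2, org_2]
  by_cases h : i = i'
  · subst h
    cases b <;> cases b' <;> simp <;> omega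
  · have h' : (i : ℕ) ≠ i' := fun e => h (Fin.ext e)
    right
    cases b <;> cases b' <;> simp <;> omega

theorem org_bound (l : Fin k × Bool) (j : Fin 4) : 0 ≤ org k l j ∧ org k l j + 3 ≤ boxHi k j := by
  have h := l.1.2
  fin_cases j
  · exact ⟨show (0 : ℤ) ≤ 2 by decide, show (2 : ℤ) + 3 ≤ 17 by decide⟩
  · exact ⟨show (0 : ℤ) ≤ 7 by decide, show (7 : ℤ) + 3 ≤ 17 by decide⟩
  · show 0 ≤ org k l 2 ∧ org k l 2 + 3 ≤ boxHi k 2
    rw [org_2, boxHi_2]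
    split_ifs <;> omega
  · exact ⟨le_rfl, le_rfl⟩

theorem org_cave (l : Fin k × Bool) {c : Pt × Pt} (h : c ∈ caves k) :
    ∃ j, j ≠ 3 ∧ (org k l j + 3 ≤ c.1 j ∨ c.2 j ≤ org k l j) := by
  obtain ⟨i, -, h⟩ := cave_cases h
  rcases h with ⟨-, rfl⟩ | ⟨-, rfl⟩ | rfl | rfl | rfl | rfl | rfl | rfl
  · exact ⟨0, by decide, Or.inl (show (2 : ℤ) + 3 ≤ 11 by decide)⟩
  · exact ⟨1, by decide, Or.inl (show (7 : ℤ) + 3 ≤ 10 by decide)⟩
  · exact ⟨1, by decide, Or.inr (show (7 : ℤ) ≤ 7 by decide)⟩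
  · exact ⟨1, by decide, Or.inl (show (7 : ℤ) + 3 ≤ 10 by decide)⟩
  all_goals exact ⟨0, by decide, Or.inl (show (2 : ℤ) + 3 ≤ 8 by decide)⟩

/-- both ends of a column lie on caves -/
theorem kap_cave (l : Fin k × Bool) : (∃ c ∈ caves k, c.2 1 = org k l 1 ∧ c.1 1 < org k l 1 ∧
      ∀ j, j ≠ 1 → c.1 j ≤ org k l j ∧ org k l j + 3 ≤ c.2 j) ∧
    ∃ c ∈ caves k, c.1 1 = org k l 1 + 3 ∧ org k l 1 + 3 < c.2 1 ∧
      ∀ j, j ≠ 1 → c.1 j ≤ org k l j ∧ org k l j + 3 ≤ c.2 j := by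
  have h2 : 18 * ((l.1 : ℕ) : ℤ) + 5 ≤ org k l 2 ∧ org k l 2 + 3 ≤ 18 * ((l.1 : ℕ) : ℤ) + 14 := by
    rw [org_2]
    split_ifs <;> omega
  refine ⟨⟨bx (l.1 : ℕ) 1 16 1 7 5 14, tree_mem l.1.2 (by simp [tree]), rfl,
    show (1 : ℤ) < 7 by decide, fun j hj => ?_⟩,
    bx (l.1 : ℕ) 1 16 10 16 5 14, tree_mem l.1.2 (by simp [tree]), rfl,
    show (7 : ℤ) + 3 < 16 by decide, fun j hj => ?_⟩
  all_goals
    fin_cases j
    · exact ⟨show (1 : ℤ) ≤ 2 by decide, show (2 : ℤ) + 3 ≤ 16 by decide⟩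
    · exact absurd rfl hj
    · exact h2
    · exact ⟨le_rfl, le_rfl⟩

theorem side_cases (m : ℕ) (s : Fin 4) : side m s = bx m 7 10 7 8 16 17 ∨
    side m s = bx m 9 10 7 10 16 17 ∨ side m s = bx m 7 10 9 10 16 17 ∨
      side m s = bx m 7 8 7 10 16 17 := by
  fin_cases s <;> simp [side]

theorem side_two (m : ℕ) (s : Fin 4) :
    (side m s).1 2 = 18 * m + 16 ∧ (side m s).2 2 = 18 * m + 17 := by
  rcases side_cases m s with h | h | h | h <;> rw [h] <;> exact ⟨rfl, rfl⟩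

theorem side_three (m : ℕ) (s : Fin 4) : (side m s).1 3 = 0 ∧ (side m s).2 3 = 3 := by
  rcases side_cases m s with h | h | h | h <;> rw [h] <;> exact ⟨rfl, rfl⟩

theorem side_bound {m : ℕ} (hm : m < k) (s j : Fin 4) :
    0 ≤ (side m s).1 j ∧ (side m s).2 j ≤ boxHi k j := by
  fin_cases j
  · show 0 ≤ (side m s).1 0 ∧ (side m s).2 0 ≤ 17
    rcases side_cases m s with h | h | h | h <;> rw [h, (bx_lo ..).1, (bx_hi ..).1] <;> omega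
  · show 0 ≤ (side m s).1 1 ∧ (side m s).2 1 ≤ 17
    rcases side_cases m s with h | h | h | h <;> rw [h, (bx_lo ..).2.1, (bx_hi ..).2.1] <;> omega
  · show 0 ≤ (side m s).1 2 ∧ (side m s).2 2 ≤ 18 * k
    rw [(side_two m s).1, (side_two m s).2]
    omega
  · show 0 ≤ (side m s).1 3 ∧ (side m s).2 3 ≤ 3
    rw [(side_three m s).1, (side_three m s).2]
    omega

theorem side_org (m : ℕ) (s : Fin 4) (l : Fin k × Bool) : org k l 0 + 5 ≤ (side m s).1 0 := by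
  rw [org_0]
  rcases side_cases m s with h | h | h | h <;> rw [h, (bx_lo ..).1] <;> omega

theorem side_cave (m : ℕ) (s : Fin 4) {c : Pt × Pt} (h : c ∈ caves k) :
    ∃ j, j ≠ 3 ∧ ((side m s).2 j ≤ c.1 j ∨ c.2 j ≤ (side m s).1 j) := by
  obtain ⟨i, -, h⟩ := cave_cases h
  have key : ∀ x x' y y' z z' : ℤ, (17 + 18 * (m : ℤ) ≤ 18 * i + z ∨ 18 * (i : ℤ) + z' ≤ 18 * m + 16) →
      ∃ j, j ≠ 3 ∧ ((side m s).2 j ≤ (bx i x x' y y' z z').1 j ∨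
        (bx i x x' y y' z z').2 j ≤ (side m s).1 j) := fun x x' y y' z z' h => by
    refine ⟨2, by decide, ?_⟩
    rw [(side_two m s).1, (side_two m s).2, (bx_lo ..).2.2.1, (bx_hi ..).2.2.1]
    omega
  rcases h with ⟨-, rfl⟩ | ⟨-, rfl⟩ | rfl | rfl | rfl | rfl | rfl | rfl
  iterate 6 exact key _ _ _ _ _ _ (by omega)
  · rcases side_cases m s with h | h | h | h <;> rw [h]
    · exact ⟨1, by decide, Or.inl le_rfl⟩
    · exact ⟨0, by decide, Or.inr le_rfl⟩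
    · exact ⟨1, by decide, Or.inr le_rfl⟩
    · exact ⟨0, by decide, Or.inl le_rfl⟩
  · exact key _ _ _ _ _ _ (by omega)

end Vale.Agent.P260Z.Lay
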