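import Vale.Agent.P215Z.Lat

/-!
# P260: the periodic layout of the tower

Coordinates are `X, Y, Z, T`.  The level `i` is the part `18 i ≤ Z ≤ 18 i + 18`.
-/

namespace Vale.Agent.P260Z.Lay

open P215Z

/-- the box `[x, x'] × [y, y'] × [18 i + z, 18 i + z'] × [0, 3]` -/
def bx (i : ℤ) (x x' y y' z z' : ℤ) : Pt × Pt :=
  (![x, y, 18 * i + z, 0], ![x', y', 18 * i + z', 3])

/-- the two long beams, the channel, the stem and the exit of the tree of the level `i` -/
def tree (i : ℤ) : List (Pt × Pt) :=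
  [bx i 1 16 1 7 5 14, bx i 1 16 10 16 5 14, bx i 8 9 3 4 1 5, bx i 8 9 3 9 1 2,
    bx i 8 9 8 9 (-15) 2, bx i 8 9 8 17 (-15) (-14)]

/-- the beam which closes the ring -/
def clo (i : ℤ) : Pt × Pt := bx i 11 16 1 16 5 14

/-- the exit of the upper beam on the top level -/
def top (i : ℤ) : Pt × Pt := bx i 1 16 10 17 5 14

def boxHi (k : ℕ) : Pt := ![17, 17, 18 * k, 3]

/-- the caves of the tower with `k` levels -/
def caves (k : ℕ) : List (Pt × Pt) :=
  (List.range k).flatMap fun i =>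
    (if i + 1 < k then clo i else top i) :: tree i

/-- lower corners of the plumbing cubes; they have side `3` -/
def org (k : ℕ) (l : Fin k × Bool) : Pt := ![2, 7, 18 * (l.1 : ℕ) + (if l.2 then 10 else 6), 0]

/-- the four side boxes round the stem above the ring of the level `m` -/
def side (m : ℕ) : Fin 4 → Pt × Pt :=
  ![bx m 7 10 7 8 16 17, bx m 9 10 7 10 16 17, bx m 7 10 9 10 16 17, bx m 7 8 7 10 16 17]

theorem mem_caves {k : ℕ} {c : Pt × Pt} : c ∈ caves k ↔ ∃ i : ℕ, i < k ∧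
    ((i + 1 < k ∧ c = clo i) ∨ (i + 1 = k ∧ c = top i) ∨ c ∈ tree i) := by
  unfold caves
  rw [List.mem_flatMap]
  constructor
  · rintro ⟨i, hi, h⟩
    have hi' : i < k := List.mem_range.1 hi
    refine ⟨i, hi', ?_⟩
    rcases List.mem_cons.1 h with h | h
    · by_cases h1 : i + 1 < k
      · rw [if_pos h1] at h
        exact Or.inl ⟨h1, h⟩
      · rw [if_neg h1] at h
        exact Or.inr (Or.inl ⟨by omega, h⟩)
    · exact Or.inr (Or.inr h)
  · rintro ⟨i, hi, h⟩
    refine ⟨i, List.mem_range.2 hi, ?_⟩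
    rcases h with ⟨h1, h⟩ | ⟨h1, h⟩ | h
    · rw [if_pos h1]
      exact List.mem_cons.2 (Or.inl h)
    · rw [if_neg (by omega)]
      exact List.mem_cons.2 (Or.inl h)
    · exact List.mem_cons.2 (Or.inr h)

theorem inBox_bx (N : ℕ) (i x x' y y' z z' : ℤ) (q : Pt) :
    InBox N (bx i x x' y y' z z').1 (bx i x x' y y' z z').2 q ↔
      (N * x ≤ q 0 ∧ q 0 < N * x') ∧ (N * y ≤ q 1 ∧ q 1 < N * y') ∧
        (N * (18 * i + z) ≤ q 2 ∧ q 2 < N * (18 * i + z')) ∧ (0 ≤ q 3 ∧ q 3 < N * 3) := by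
  simp [InBox, bx, Fin.forall_fin_succ]

end Vale.Agent.P260Z.Lay
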