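import Vale.Agent.P260Z.Ob.Final
import Vale.Agent.P260Z.L3.AEU
import Vale.Agent.P260Z.L3.NoLS
import Vale.Agent.P260Z.L3.Main

/-!
# P260: assembly
-/

namespace Vale.Agent.P260Z

theorem counter : Counter :=
  L3.counter_of (L3.aeU L3.pos ae1 ae2) (L3.aeC L3.pos (L3.iot_all L3.pos) ae1 ae2)
    (L3.noLS L3.pos Ob.hobs)

end Vale.Agent.P260Z
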